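import Vale.Agent.P006.SG.Main
import Vale.Agent.P006.R1.AutRho
import Vale.Agent.P006.H2.Exists

/-!
P026, block THETA, part A: the residues `th k` (Fourier coefficients of the cubic theta function)
for all nonzero `k`, their local relations and their closed form.
-/

open Filter Topology
open scoped Real

namespace Vale.Agent.P026Z.TH

open Vale.Agent.P006 Vale.Agent.P006.PO

/-- the residues: `∑_{c primary, N c ≤ t} gt k c ∼ (6/5) th k t^{5/6}` -/
noncomputable def th : O → ℂ := FC.autExists.choose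

theorem th_FC : V2.FCHyp th := FC.autExists.choose_spec

theorem th_sharp : ∃ (C : ℝ) (A : ℕ) (δ : ℝ), 0 < δ ∧ δ < 1 / 3 ∧ SG.SharpHyp th C A δ :=
  KU.Sharp.sharpHyp_of_FCHyp th_FC

theorem th_rho3 : V2.Rho3 th := R1.autRho th th_FC

theorem th_one_im : (th 1).im = 0 := (SG.autSign th th_FC th_rho3).1

theorem th_one_re_pos : 0 < (th 1).re := (SG.autSign th th_FC th_rho3).2

theorem th_one_ne_zero : th 1 ≠ 0 := by
  intro h
  have := th_one_re_pos
  rw [h] at this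
  simp at this

/-- `th k` depends only on the Gauss sums `gs k c`, `c` primary -/
theorem th_congr {k k' : O} (hk : k ≠ 0) (hk' : k' ≠ 0)
    (h : ∀ c : O, Primary c → gs k c = gs k' c) : th k = th k' := by
  obtain ⟨C, A, δ, hδ, -, hθ⟩ := th_sharp
  have h1 := SG.tendsto_PS hθ hδ hk
  have h2 := SG.tendsto_PS hθ hδ hk'
  have e : ∀ t : ℝ, SG.PS (SG.gt k) t = SG.PS (SG.gt k') t := by
    intro t
    rw [SG.PS, SG.PS]
    refine Finset.sum_congr rfl fun c hc => ?_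
    rw [SG.gt, SG.gt, h c (Finset.mem_filter.1 hc).2]
  simp only [e] at h1
  have h3 := tendsto_nhds_unique h1 h2
  have h4 : (6 / 5 : ℂ) ≠ 0 := by norm_num
  exact mul_left_cancel₀ h4 h3

theorem th_neg (k : O) : th (-k) = th k := by
  by_cases hk : k = 0
  · rw [hk, neg_zero]
  · exact th_congr (neg_ne_zero.2 hk) hk fun c hc => gs_neg k hc.ne_zero

/-- elements `u λ^j`, `u` a unit -/
def Ram (μ : O) : Prop := ∃ (u : O) (j : ℕ), IsUnit u ∧ μ = u * lam ^ j

theorem lam_ne_zero : lam ≠ 0 := prime_lam.ne_zero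

theorem Ram.ne_zero {μ : O} (h : Ram μ) : μ ≠ 0 := by
  obtain ⟨u, j, hu, rfl⟩ := h
  exact mul_ne_zero hu.ne_zero (pow_ne_zero j lam_ne_zero)

theorem Ram.isCoprime {μ c : O} (h : Ram μ) (hc : Primary c) : IsCoprime μ c := by
  obtain ⟨u, j, hu, rfl⟩ := h
  exact (isCoprime_mul_unit_left_left hu _ _).2 hc.isCoprime_lam.pow_left

theorem Ram.mul {μ ν : O} (h : Ram μ) (h' : Ram ν) : Ram (μ * ν) := by
  obtain ⟨u, j, hu, rfl⟩ := h
  obtain ⟨u', j', hu', rfl⟩ := h'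
  exact ⟨u * u', j + j', hu.mul hu', by ring⟩

theorem ram_unit {u : O} (hu : IsUnit u) : Ram u := ⟨u, 0, hu, by simp⟩

theorem ram_one : Ram 1 := ram_unit isUnit_one

theorem ram_lam : Ram lam := ⟨1, 1, isUnit_one, by simp⟩

theorem ram_rt3 : Ram rt3 := ⟨om, 1, isUnit_om, by decide⟩

theorem ram_three : Ram 3 := ⟨-(om ^ 2), 2, (isUnit_om.pow 2).neg, three_eq⟩

/-- every nonzero element is `μ b` with `μ = u λ^j` and `b` primary -/
theorem exists_ram_mul {k : O} (hk : k ≠ 0) : ∃ μ b : O, Ram μ ∧ Primary b ∧ k = μ * b := by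
  obtain ⟨u, c0, j, hu, hc0, e⟩ := KU.exists_factor k hk
  exact ⟨u * lam ^ j, c0, ⟨u, j, hu, rfl⟩, hc0, e⟩

theorem th_ram_cube {μ : O} (hμ : Ram μ) {k : O} (hk : k ≠ 0) : th (μ ^ 3 * k) = th k :=
  th_congr (mul_ne_zero (pow_ne_zero 3 hμ.ne_zero) hk) hk fun _ hc =>
    gs_cube_mul k hc.ne_zero (hμ.isCoprime hc)

theorem th_lam_cube {k : O} (hk : k ≠ 0) : th (lam ^ 3 * k) = th k := th_ram_cube ram_lam hk

/-! ### local relations at a primary prime, for arbitrary cofactors -/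

theorem th_prime_mul {p m : O} (hp : Prime p) (hpp : Primary p) (hpm : ¬ p ∣ m) :
    th (p * m) = (((N p : ℝ) ^ (-(1 / 6 : ℝ)) : ℝ) : ℂ) * (starRingEnd ℂ) (gt m p) * th m := by
  obtain ⟨w, a, b, H, hW⟩ := R1.exists_weight
  exact R1.theta_mul (R1.Nice.bddSupp H) hp hpp hW (fun ν hν => R1.tendsto_S th_FC H hν)
    (fun ν hν => R1.tendsto_diff R1.tailHyp H hp hpp hν) hpm

theorem th_prime_sq_mul {p m : O} (hp : Prime p) (hpp : Primary p) (hpm : ¬ p ∣ m) :
    th (p ^ 2 * m) = 0 := by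
  obtain ⟨w, a, b, H, hW⟩ := R1.exists_weight
  exact R1.theta_sq (R1.Nice.bddSupp H) hp hpp hW (fun ν hν => R1.tendsto_S th_FC H hν)
    (fun ν hν => R1.tendsto_diff R1.tailHyp H hp hpp hν) hpm

theorem th_prime_cube_mul {p m : O} (hp : Prime p) (hpp : Primary p) (hm : m ≠ 0) :
    th (p ^ 3 * m) = th m := R1.theta_cube_all R1.tailHyp th_FC hp hpp hm

theorem not_dvd_ram_mul {μ s p : O} (hμ : Ram μ) (hp : V2.PrP p) (hs : ¬ p ∣ s) : ¬ p ∣ μ * s := by
  intro h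
  rcases hp.2.dvd_or_dvd h with h1 | h1
  · exact hp.2.not_isUnit ((hμ.isCoprime hp.1).isUnit_of_dvd' h1 dvd_rfl)
  · exact hs h1

theorem conj_mul_self_sym {a b : O} (h : IsCoprime a b) :
    (starRingEnd ℂ) (toC (sym a b)) * toC (sym a b) = 1 := by
  rw [Complex.conj_mul', norm_sym h]; simp

/-- the residues along `μ b`, untwisted, satisfy the relations of the primary residues -/
theorem rho3_ram {μ : O} (hμ : Ram μ) :
    V2.Rho3 (fun s => th (μ * s) * (starRingEnd ℂ) (toC (sym μ s))) := by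
  refine ⟨⟨fun s p hs hp hps => ?_, fun s p hs hp hps => ?_⟩, fun s p v hs hp hps => ?_⟩
  · have h1 := th_prime_mul hp.2 hp.1 (not_dvd_ram_mul hμ hp hps)
    have hc := hμ.isCoprime hp.1
    have h2 : gt (μ * s) p = (starRingEnd ℂ) (toC (sym μ p)) * gt s p := by
      rw [gt, gt, gs_twist s hp.1.ne_zero hc]; ring
    have h3 := conj_mul_self_sym hc
    show th (μ * (s * p)) * _ = _ * _ * (th (μ * s) * _)
    rw [show μ * (s * p) = p * (μ * s) by ring, h1, h2, sym_mul_right μ hs.ne_zero hp.1.ne_zero,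
      map_mul, map_mul, map_mul, Complex.conj_conj]
    linear_combination ((((N p : ℝ) ^ (-(1 / 6 : ℝ)) : ℝ) : ℂ) * (starRingEnd ℂ) (gt s p) *
      th (μ * s) * (starRingEnd ℂ) (toC (sym μ s))) * h3
  · show th (μ * (s * p ^ 2)) * _ = 0
    rw [show μ * (s * p ^ 2) = p ^ 2 * (μ * s) by ring,
      th_prime_sq_mul hp.2 hp.1 (not_dvd_ram_mul hμ hp hps), zero_mul]
  · show th (μ * (s * p ^ (v + 3))) * _ = th (μ * (s * p ^ v)) * _
    have h0 : s * p ^ v ≠ 0 := mul_ne_zero hs.ne_zero (pow_ne_zero v hp.2.ne_zero)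
    have h1 : sym μ (s * p ^ (v + 3)) = sym μ (s * p ^ v) := by
      rw [show s * p ^ (v + 3) = s * p ^ v * p ^ 3 by ring,
        sym_mul_right μ h0 (pow_ne_zero 3 hp.2.ne_zero),
        sym_cube_right hp.2.ne_zero (hμ.isCoprime hp.1), mul_one]
    rw [h1, show μ * (s * p ^ (v + 3)) = p ^ 3 * (μ * (s * p ^ v)) by ring,
      th_prime_cube_mul hp.2 hp.1 (mul_ne_zero hμ.ne_zero h0)]

/-- **closed form**: `th (μ b) = (μ/b)_3 th(μ) Th(b)` for `μ = u λ^j` and `b` primary -/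
theorem th_ram_mul {μ b : O} (hμ : Ram μ) (hb : Primary b) :
    th (μ * b) = toC (sym μ b) * th μ * DISP.Th b := by
  have h1 := V2.rho_eq_Th (rho3_ram hμ) hb
  have h2 := conj_mul_self_sym (hμ.isCoprime hb)
  simp only [mul_one, sym_unit μ isUnit_one, map_one] at h1
  calc th (μ * b) = th (μ * b) * ((starRingEnd ℂ) (toC (sym μ b)) * toC (sym μ b)) := by
        rw [h2, mul_one]
    _ = (th (μ * b) * (starRingEnd ℂ) (toC (sym μ b))) * toC (sym μ b) := by ring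
    _ = _ := by rw [h1]; ring

/-- the value at `μ n b³` -/
theorem th_eq {μ n b : O} (hμ : Ram μ) (hn : InP n) (hb : Primary b) :
    th (μ * (n * b ^ 3)) = th μ * (starRingEnd ℂ) (gt μ n) *
      (((N n : ℝ) ^ (-(1 / 6) : ℝ) : ℝ) : ℂ) := by
  rw [th_ram_mul hμ (hn.1.mul (hb.pow 3)), DISP.Th_eq hn hb,
    sym_mul_right μ hn.ne_zero (pow_ne_zero 3 hb.ne_zero),
    sym_cube_right hb.ne_zero (hμ.isCoprime hb), mul_one,
    gt_twist_one hn.ne_zero (hμ.isCoprime hn.1), map_mul, Complex.conj_conj]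
  ring

/-- the value at `n b³` -/
theorem th_primary {n b : O} (hn : InP n) (hb : Primary b) :
    th (n * b ^ 3) = th 1 * (starRingEnd ℂ) (gt 1 n) * (((N n : ℝ) ^ (-(1 / 6) : ℝ) : ℝ) : ℂ) := by
  have h := th_eq ram_one hn hb
  rwa [one_mul] at h

/-- vanishing off the support -/
theorem th_eq_zero {μ b : O} (hμ : Ram μ) (hb : Primary b)
    (h : ¬ ∃ n m, InP n ∧ Primary m ∧ b = n * m ^ 3) : th (μ * b) = 0 := by
  rw [th_ram_mul hμ hb, DISP.Th_eq_zero h hb.ne_zero, mul_zero]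

/-- the residues at `u λ^j` are bounded -/
theorem exists_bound_ram : ∃ C : ℝ, 0 ≤ C ∧ ∀ μ : O, Ram μ → ‖th μ‖ ≤ C := by
  obtain ⟨C, A, δ, -, -, hθ⟩ := th_sharp
  obtain ⟨K, hK, hb⟩ := hθ.bound
  refine ⟨K * 9 ^ A, by positivity, ?_⟩
  rintro μ ⟨u, j, hu, rfl⟩
  induction j using Nat.strong_induction_on with
  | _ j ih =>
    by_cases hj : j < 3
    · have h0 : u * lam ^ j ≠ 0 := mul_ne_zero hu.ne_zero (pow_ne_zero j lam_ne_zero)
      refine (hb _ h0).trans ?_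
      have h1 : (N (u * lam ^ j) : ℝ) ≤ 9 := by
        rw [N_mul, isUnit_iff_N.1 hu, one_mul, N_pow, N_lam]
        have : 3 ^ j ≤ 3 ^ 2 := Nat.pow_le_pow_right (by norm_num) (by omega)
        exact_mod_cast this
      gcongr
    · obtain ⟨i, rfl⟩ : ∃ i, j = i + 3 := ⟨j - 3, by omega⟩
      have h0 : u * lam ^ i ≠ 0 := mul_ne_zero hu.ne_zero (pow_ne_zero i lam_ne_zero)
      rw [show u * lam ^ (i + 3) = lam ^ 3 * (u * lam ^ i) by ring, th_lam_cube h0]
      exact ih i (by omega)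

/-- **shape of a coefficient system**: supported on `k = μ n b³` (`μ = u λ^j`, `n` squarefree
primary, `b` primary), of size at most `C N(n)^{-1/6}` there -/
def Shape (C : ℝ) (a : O → ℂ) : Prop :=
  ∀ k : O, k ≠ 0 → a k ≠ 0 → ∃ μ n b : O, Ram μ ∧ InP n ∧ Primary b ∧ k = μ * (n * b ^ 3) ∧
    ‖a k‖ ≤ C * (N n : ℝ) ^ (-(1 / 6) : ℝ)

theorem exists_shape_th : ∃ C : ℝ, 0 ≤ C ∧ Shape C th := by
  obtain ⟨C, hC, hb⟩ := exists_bound_ram
  refine ⟨C, hC, fun k hk hne => ?_⟩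
  obtain ⟨μ, c, hμ, hc, rfl⟩ := exists_ram_mul hk
  by_cases h : ∃ n m, InP n ∧ Primary m ∧ c = n * m ^ 3
  · obtain ⟨n, m, hn, hm, rfl⟩ := h
    refine ⟨μ, n, m, hμ, hn, hm, rfl, ?_⟩
    rw [th_eq hμ hn hm, norm_mul, norm_mul, RCLike.norm_conj,
      norm_gt hn.1 hn.2 (hμ.isCoprime hn.1), mul_one, Complex.norm_real,
      Real.norm_of_nonneg (by positivity)]
    exact mul_le_mul_of_nonneg_right (hb μ hμ) (by positivity)
  · exact absurd (th_eq_zero hμ hc h) hne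

theorem Shape.norm_le {C : ℝ} {a : O → ℂ} (h : Shape C a) (hC : 0 ≤ C) {k : O} (hk : k ≠ 0) :
    ‖a k‖ ≤ C := by
  by_cases hne : a k = 0
  · rw [hne, norm_zero]; exact hC
  · obtain ⟨μ, n, b, -, hn, -, -, h1⟩ := h k hk hne
    refine h1.trans (mul_le_of_le_one_right hC ?_)
    exact Real.rpow_le_one_of_one_le_of_nonpos (one_le_N hn.ne_zero) (by norm_num)

end Vale.Agent.P026Z.TH
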