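import Vale.Agent.P026Z.TH.Coef

/-!
P026, block THETA, part B: the cubic theta function `Theta` on hyperbolic three-space; it is the
pointwise limit of the normalised Eisenstein series, invariant under `SL₂(ℤ)` generators and
automorphic under `Γ(3)` with the Kubota character.
-/

open MeasureTheory Filter Topology Set Matrix
open scoped Real ENNReal

namespace Vale.Agent.P026Z.TH

open Vale.Agent.P006 Vale.Agent.P006.PO Vale.Agent.P006.H9

/-- the constant term -/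
noncomputable def c0 : ℝ := 4 * π ^ 2 / 243 * GRAM.D1

theorem constHyp : SG.ConstHyp c0 := SG.constGoal.1

theorem c0_pos : 0 < c0 := lt_of_lt_of_le (by norm_num) SG.constGoal.2

/-- **the cubic theta function** -/
noncomputable def Theta (w : H3) : ℂ := SG.ThH c0 th w

theorem continuous_Theta : Continuous Theta := by
  obtain ⟨C, A, δ, -, -, hθ⟩ := th_sharp
  exact SG.continuous_ThH hθ c0

theorem tendsto_E_S (w : H3) :
    Tendsto (fun X : ℝ => E 1 R1.eta (SG.fX X) (KU.Smat O • w) / SG.lX X) atTop (𝓝 (Theta w)) := by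
  obtain ⟨C, A, δ, hδ, hδ1, hθ⟩ := th_sharp
  exact SG.tendsto_E_S hθ hδ hδ1 constHyp w

theorem tendsto_E_id (w : H3) :
    Tendsto (fun X : ℝ => E 1 R1.eta (SG.fX X) w / SG.lX X) atTop
      (𝓝 (Theta (KU.Smat O • w))) := by
  obtain ⟨C, A, δ, hδ, hδ1, hθ⟩ := th_sharp
  exact SG.tendsto_E_id hθ hδ hδ1 constHyp w

/-- `S`-invariance in mean square above any height -/
theorem inv_exp_all {v0 : ℝ} (hv0 : 0 < v0) : ∀ ε > 0, ∀ᶠ X in atTop,
    ∫⁻ w in Ptop v0, ‖E 1 R1.eta (SG.fX X) (KU.Smat O • w) - E 1 R1.eta (SG.fX X) w‖ₑ ^ 2 ∂muH ≤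
      ENNReal.ofReal (ε * SG.lX X ^ 2) := by
  intro ε hε
  obtain ⟨C, hC, hE⟩ := JB.expNorms
  filter_upwards [SG.eventually_small (K := 12800 * (1 + (v0 ^ 2)⁻¹) *
    ((area + 2 * Real.pi / 3 * GRAM.cE) * (3 * C))) hε, eventually_ge_atTop 1] with X hX1 hX2
  obtain ⟨hcl, hl, H, H1, hp, n1, n2, n3⟩ := hE X hX2
  have h1 := GRAM.G_S_one hcl hp (A := X ^ (1 / 3 : ℝ)) (Real.one_le_rpow hX2 (by norm_num)) hv0
  refine h1.trans (ENNReal.ofReal_le_ofReal ?_)
  have h2 := SG.noise_le hC hX2 n1 n2 n3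
  have h3 : 0 ≤ area + 2 * Real.pi / 3 * GRAM.cE := by
    have := area_pos
    have := GRAM.cE_nonneg
    positivity
  calc 12800 * (1 + (v0 ^ 2)⁻¹) * ((area + 2 * Real.pi / 3 * GRAM.cE) *
        GRAM.noise (SG.fX X) H H1 (X ^ (1 / 3 : ℝ)))
      ≤ 12800 * (1 + (v0 ^ 2)⁻¹) * ((area + 2 * Real.pi / 3 * GRAM.cE) *
        (3 * C * X ^ (7 / 3 : ℝ))) := by gcongr
    _ = 12800 * (1 + (v0 ^ 2)⁻¹) * ((area + 2 * Real.pi / 3 * GRAM.cE) * (3 * C)) *
        X ^ (7 / 3 : ℝ) := by ring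
    _ ≤ _ := hX1

theorem Theta_tr_three (x : O) (w : H3) : Theta (KU.tr (3 * x) • w) = Theta w :=
  SG.ThH_tr_three c0 th x w

/-- **invariance under `S`** -/
theorem Theta_S (w : H3) : Theta (KU.Smat O • w) = Theta w := by
  obtain ⟨C, A, δ, hδ, hδ1, hθ⟩ := th_sharp
  have hv0 : 0 < w.v / 2 := by have := w.v_pos; positivity
  set g : H3 → ℂ := fun w => Theta w - Theta (KU.Smat O • w) with hg
  have hT := continuous_Theta
  have hgc : Continuous g := hT.sub (hT.comp (continuous_const_smul (KU.Smat O)))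
  have hlim : ∀ w, Tendsto (fun X : ℝ =>
      (E 1 R1.eta (SG.fX X) (KU.Smat O • w) - E 1 R1.eta (SG.fX X) w) / SG.lX X) atTop
      (𝓝 (g w)) := by
    intro w
    have := (tendsto_E_S w).sub (tendsto_E_id w)
    refine this.congr fun X => ?_
    rw [sub_div]
  have hF : ∀ X : ℝ, Measurable fun w : H3 =>
      E 1 R1.eta (SG.fX X) (KU.Smat O • w) - E 1 R1.eta (SG.fX X) w := fun X =>
    ((measurable_E 1 R1.eta (SG.measurable_fX X)).comp (measurable_const_smul _)).sub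
      (measurable_E 1 R1.eta (SG.measurable_fX X))
  have h1 : ∫⁻ w in Ptop (w.v / 2), ‖g w‖ₑ ^ 2 ∂muH ≤ ENNReal.ofReal 0 :=
    SG.lintegral_lim_le hF _ hlim le_rfl (fun ε hε => by
      simpa only [zero_add] using inv_exp_all hv0 ε hε)
  rw [ENNReal.ofReal_zero, nonpos_iff_eq_zero] at h1
  have hinv : ∀ (x : O) (w : H3), g (KU.tr (3 * x) • w) = g w := by
    intro x w
    simp only [hg]
    rw [Theta_tr_three]
    congr 1
    exact SG.ThH_S_tr hθ hδ hδ1 constHyp (μ := 3 * x) (fun f w => SG.E_tr_three f x w) w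
  have h2 := SG.eq_zero_of_ae hgc hinv h1 w (by have := w.v_pos; linarith)
  simp only [hg] at h2
  exact (sub_eq_zero.1 h2).symm

/-- `Theta` is the pointwise limit of the normalised Eisenstein series -/
theorem tendsto_E (w : H3) :
    Tendsto (fun X : ℝ => E 1 R1.eta (SG.fX X) w / SG.lX X) atTop (𝓝 (Theta w)) := by
  have h := tendsto_E_id w
  rwa [Theta_S] at h

/-- **automorphy under `Γ(3)`** -/
theorem Theta_aut {γ : SpecialLinearGroup (Fin 2) O} (hγ : γ ∈ KU.Gamma3 O) (w : H3) :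
    Theta (γ • w) = (starRingEnd ℂ) (toC (sym (γ 1 0) (γ 1 1))) * Theta w := by
  have h1 := tendsto_E (γ • w)
  have h2 := (tendsto_E w).const_mul ((starRingEnd ℂ) (toC (sym (γ 1 0) (γ 1 1))))
  refine tendsto_nhds_unique h1 (h2.congr fun X => ?_)
  rw [E_aut R1.rowChar_eta 1 (SG.fX X) γ (Gamma3_le_Gam_one hγ) w, mul_div_assoc]
  rfl

/-- on `Γ(3)` the symbols `(c/d)_3` and `(c/a)_3` are conjugate -/
theorem sym_row_eq {γ : SpecialLinearGroup (Fin 2) O} (hγ : γ ∈ KU.Gamma3 O) :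
    (starRingEnd ℂ) (toC (sym (γ 1 0) (γ 1 1))) = toC (sym (γ 1 0) (γ 0 0)) := by
  have h1 := R1.rowChar_eta.mul γ hγ γ⁻¹ (Subgroup.inv_mem _ hγ)
  rw [mul_inv_cancel, KU.inv_10, KU.inv_11] at h1
  have e1 : (1 : SpecialLinearGroup (Fin 2) O) 1 0 = 0 := by simp
  have e2 : (1 : SpecialLinearGroup (Fin 2) O) 1 1 = 1 := by simp
  rw [e1, e2, R1.rowChar_eta.one, R1.eta, R1.eta, sym_neg_left] at h1
  have h2 := conj_mul_self_sym (KU.isCoprime_row γ)
  calc (starRingEnd ℂ) (toC (sym (γ 1 0) (γ 1 1)))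
      = (starRingEnd ℂ) (toC (sym (γ 1 0) (γ 1 1))) *
        (toC (sym (γ 1 0) (γ 1 1)) * toC (sym (γ 1 0) (γ 0 0))) := by rw [← h1, mul_one]
    _ = ((starRingEnd ℂ) (toC (sym (γ 1 0) (γ 1 1))) * toC (sym (γ 1 0) (γ 1 1))) *
        toC (sym (γ 1 0) (γ 0 0)) := by ring
    _ = _ := by rw [h2, one_mul]

/-- **automorphy under `Γ(3)`**, with the symbol `(c/a)_3` -/
theorem Theta_aut' {γ : SpecialLinearGroup (Fin 2) O} (hγ : γ ∈ KU.Gamma3 O) (w : H3) :
    Theta (γ • w) = toC (sym (γ 1 0) (γ 0 0)) * Theta w := by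
  rw [Theta_aut hγ, sym_row_eq hγ]

/-- **invariance under `z ↦ z + 1`** -/
theorem Theta_tr_one (w : H3) : Theta (KU.tr (1 : O) • w) = Theta w := by
  have h1 := tendsto_E (KU.tr (1 : O) • w)
  simp only [SG.E_tr_one] at h1
  exact tendsto_nhds_unique h1 (tendsto_E w)

theorem Theta_tr_int (n : ℤ) (w : H3) : Theta (KU.tr (n : O) • w) = Theta w := by
  induction n using Int.induction_on generalizing w with
  | zero => simp
  | succ n ih =>
    rw [show (((n : ℤ) + 1 : ℤ) : O) = 1 + ((n : ℤ) : O) by push_cast; ring, KU.tr_add, mul_smul,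
      Theta_tr_one, ih]
  | pred n ih =>
    have h := Theta_tr_one (KU.tr ((-(n : ℤ) - 1 : ℤ) : O) • w)
    rw [← mul_smul, ← KU.tr_add, show (1 : O) + ((-(n : ℤ) - 1 : ℤ) : O) = ((-(n : ℤ) : ℤ) : O) by
      push_cast; ring, ih] at h
    exact h.symm

/-! ### Fourier expansion and support -/

/-- the coefficient functions: `c0 v^{2/3}` at `k = 0`, else
`kap0 * th k * v^{2/3} * G ((aa √(N k) v)²)` -/
noncomputable def Tc (v : ℝ) (k : O) : ℂ := SG.Tk0 c0 th v k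

theorem Tc_zero (v : ℝ) : Tc v 0 = ((c0 * v ^ (2 / 3 : ℝ) : ℝ) : ℂ) := by
  rw [Tc, SG.Tk0, if_pos rfl]

theorem Tc_of_ne {k : O} (hk : k ≠ 0) (v : ℝ) : Tc v k =
    SG.kap0 * th k * ((v ^ (2 / 3 : ℝ) * SG.G ((SG.aa * √(N k) * v) ^ 2) : ℝ) : ℂ) := by
  rw [Tc, SG.Tk0, if_neg hk, SG.Tk]

theorem summable_Tc {v : ℝ} (hv : 0 < v) : Summable fun k : O => ‖Tc v k‖ := by
  obtain ⟨C, A, δ, -, -, hθ⟩ := th_sharp
  exact SG.summable_Tk0 hθ c0 hv

/-- **Fourier expansion** -/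
theorem hasSum_Theta (w : H3) :
    HasSum (fun k : O => Tc w.v k * eT (w.z * (toC k / (3 * toC rt3)))) (Theta w) := by
  obtain ⟨C, A, δ, -, -, hθ⟩ := th_sharp
  exact SG.hasSum_Th hθ c0 w.v_pos w.z

/-- exponential decay of the coefficient functions, uniform for `v ≥ v0` -/
theorem exists_norm_Tc_le : ∃ K : ℝ, 0 ≤ K ∧ ∀ (v : ℝ) (k : O), 0 < v → k ≠ 0 →
    ‖Tc v k‖ ≤ K * v ^ (2 / 3 : ℝ) * Real.exp (-(SG.aa * √(N k) * v)) := by
  obtain ⟨C, hC, hS⟩ := exists_shape_th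
  obtain ⟨K2, hK2, h2⟩ := SG.G_le_exp
  have hk0 := SG.kap0_pos
  have ha := SG.aa_pos
  refine ⟨SG.kap0 * C * K2, by positivity, fun v k hv hk => ?_⟩
  have hG : 0 ≤ SG.G ((SG.aa * √(N k) * v) ^ 2) := SG.F_nonneg _ _
  have h3 := h2 ((SG.aa * √(N k) * v) ^ 2) (by positivity)
  rw [Real.sqrt_sq (by positivity)] at h3
  have h4 := hS.norm_le hC hk
  rw [Tc_of_ne hk, norm_mul, norm_mul, Complex.norm_real, Complex.norm_real,
    Real.norm_of_nonneg hk0.le, Real.norm_of_nonneg (by positivity)]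
  calc SG.kap0 * ‖th k‖ * (v ^ (2 / 3 : ℝ) * SG.G ((SG.aa * √(N k) * v) ^ 2))
      ≤ SG.kap0 * C * (v ^ (2 / 3 : ℝ) * (K2 * Real.exp (-(SG.aa * √(N k) * v)))) := by gcongr
    _ = _ := by ring

/-- support of the residues -/
theorem th_support {k : O} (hk : k ≠ 0) (h : th k ≠ 0) : (3 : ℤ) ∣ k.im := by
  obtain ⟨C, A, δ, hδ, hδ1, hθ⟩ := th_sharp
  exact SG.theta_support hθ hδ hδ1 constHyp SG.inv_exp hk h

theorem th_eq_zero_of_im {k : O} (h : ¬ (3 : ℤ) ∣ k.im) : th k = 0 := by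
  by_contra hne
  refine h (th_support ?_ hne)
  rintro rfl
  exact h (by simp)

/-- the residues vanish on the class of `ω` modulo `3` -/
theorem th_eq_zero_of_om {k : O} (h : (3 : O) ∣ k - om) : th k = 0 := by
  apply th_eq_zero_of_im
  have h1 := (dvd_three_iff.1 h).2
  rw [QuadraticAlgebra.im_sub, show om.im = 1 from rfl] at h1
  omega

theorem th_om_mul {k : O} (hk : Primary k) : th (om * k) = 0 := by
  apply th_eq_zero_of_om
  rw [show om * k - om = om * (k - 1) by ring]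
  exact Dvd.dvd.mul_left hk _

theorem th_lam_cube_of_om {k : O} (h : (3 : O) ∣ k - om) : th (lam ^ 3 * k) = 0 := by
  have hk : k ≠ 0 := by
    rintro rfl
    have h1 := (dvd_three_iff.1 h).2
    rw [QuadraticAlgebra.im_sub, show om.im = 1 from rfl, show (0 : O).im = 0 from rfl] at h1
    omega
  rw [th_lam_cube hk, th_eq_zero_of_om h]

end Vale.Agent.P026Z.TH
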