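import Vale.Agent.P026Z.TH.Aut

/-!
P026, block THETA, part C1: the cubic symbol under a shear of the row,
`(3y / (d - 3 y x))_3 = e(Tr(b y / 3)) (3y / d)_3` with `x = a + b ω`.
-/

open Filter Topology
open scoped Real

namespace Vale.Agent.P026Z.TH

open Vale.Agent.P006 Vale.Agent.P006.PO

theorem e_third : e (1 / 3) = omC := by
  have h1 : e (1 / 3) = Complex.exp (((2 * π / 3 : ℝ) : ℂ) * Complex.I) := by
    rw [e]; congr 1; push_cast; ring
  have hc : Real.cos (2 * π / 3) = -1 / 2 := by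
    rw [show 2 * π / 3 = π - π / 3 by ring, Real.cos_pi_sub, Real.cos_pi_div_three]; norm_num
  have hs : Real.sin (2 * π / 3) = Real.sqrt 3 / 2 := by
    rw [show 2 * π / 3 = π - π / 3 by ring, Real.sin_pi_sub, Real.sin_pi_div_three]
  rw [h1]
  apply Complex.ext
  · rw [Complex.exp_ofReal_mul_I_re, hc]; rfl
  · rw [Complex.exp_ofReal_mul_I_im, hs]; rfl

theorem e_ne_zero (x : ℝ) : e x ≠ 0 := by
  intro h
  have := norm_e x
  rw [h, norm_zero] at this
  exact zero_ne_one this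

/-- the powers of `ω` as values of `e` -/
theorem toC_omU_zpow (m : ℤ) : toC ((omU ^ m : Oˣ) : O) = e (m / 3) := by
  induction m using Int.induction_on with
  | zero => simp
  | succ n ih =>
    rw [zpow_add_one, Units.val_mul, map_mul, ih]
    rw [show ((omU : Oˣ) : O) = om from rfl, toC_om, ← e_third, ← e_add]
    congr 1; push_cast; ring
  | pred n ih =>
    have h1 : (omU ^ (-(n : ℤ)) : Oˣ) = omU ^ (-(n : ℤ) - 1) * omU := by
      rw [← zpow_add_one]; congr 1; ring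
    rw [h1, Units.val_mul, map_mul, show ((omU : Oˣ) : O) = om from rfl, toC_om, ← e_third] at ih
    have h2 : e (((-(n : ℤ) : ℤ) : ℝ) / 3) = e (((-(n : ℤ) - 1 : ℤ) : ℝ) / 3) * e (1 / 3) := by
      rw [← e_add]; congr 1; push_cast; ring
    rw [h2] at ih
    exact mul_right_cancel₀ (e_ne_zero _) ih

theorem e_third_congr {m n : ℤ} (h : (3 : ℤ) ∣ m - n) : e (m / 3) = e (n / 3) := by
  obtain ⟨t, ht⟩ := h
  have h1 : (m : ℝ) / 3 = (n : ℝ) / 3 + (t : ℝ) := by
    have : (m : ℝ) = n + 3 * t := by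
      have h2 : m = n + 3 * t := by omega
      exact_mod_cast h2
    rw [this]; ring
  rw [h1, e_add, e_int, mul_one]

/-- the additive character `y ↦ e(Tr(b y/3))` -/
noncomputable def psi3 (b : ℤ) (y : O) : ℂ := eT (b * toC y / 3)

theorem psi3_eq (b : ℤ) (y : O) : psi3 b y = e (((b * (2 * y.re - y.im) : ℤ) : ℝ) / 3) := by
  rw [psi3, eT, show (b : ℂ) * toC y / 3 = (((b : ℝ) / 3 : ℝ) : ℂ) * toC y by push_cast; ring,
    TrC_ofReal_mul, TrC_toC]
  congr 1; push_cast; ring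

theorem norm_psi3 (b : ℤ) (y : O) : ‖psi3 b y‖ = 1 := norm_eT _

/-- the supplementary part -/
theorem sym_supp_shift {d f : O} (hd : Primary d) (j k : ℕ) :
    toC (sym (om ^ j * lam ^ k) (d + 3 * f)) =
      e (((-(f.re + f.im) * j + f.re * k : ℤ) : ℝ) / 3) * toC (sym (om ^ j * lam ^ k) d) := by
  obtain ⟨⟨m, hm⟩, ⟨n, hn⟩⟩ := primary_iff.1 hd
  have h3re : (3 * f).re = 3 * f.re := by
    simp [QuadraticAlgebra.re_mul, re_three, im_three]
  have h3im : (3 * f).im = 3 * f.im := by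
    simp [QuadraticAlgebra.im_mul, re_three, im_three]
  rw [KU.sym_om_pow_lam_pow (m := m) (n := n) (by linarith) hn,
    KU.sym_om_pow_lam_pow (m := m + f.re) (n := n + f.im)
      (by rw [QuadraticAlgebra.re_add, h3re]; linarith)
      (by rw [QuadraticAlgebra.im_add, h3im, hn]; ring),
    toC_omU_zpow, toC_omU_zpow, ← e_add]
  congr 1; push_cast; ring

theorem primary_add_three {d : O} (hd : Primary d) (f : O) : Primary (d + 3 * f) := by
  show (3 : O) ∣ d + 3 * f - 1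
  rw [show d + 3 * f - 1 = (d - 1) + 3 * f by ring]
  exact dvd_add hd (dvd_mul_right _ _)

/-- the congruence of the exponents -/
theorem expo_dvd {y x s c0 : O} {i k : ℕ} (hi : i < 3) (hs : s = 1 ∨ s = -1) (hc0 : Primary c0)
    (hy : y = s * om ^ i * lam ^ k * c0) :
    (3 : ℤ) ∣ (-((-(y * x)).re + (-(y * x)).im) * ((i + 2 : ℕ) : ℤ) +
      (-(y * x)).re * ((k + 2 : ℕ) : ℤ)) - x.im * (2 * y.re - y.im) := by
  have hre : (-(y * x)).re = y.im * x.im - y.re * x.re := by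
    simp [QuadraticAlgebra.re_neg, QuadraticAlgebra.re_mul]; ring
  have him : (-(y * x)).im = y.im * x.im - y.re * x.im - y.im * x.re := by
    simp [QuadraticAlgebra.im_neg, QuadraticAlgebra.im_mul]; ring
  rw [hre, him]
  generalize x.re = a
  generalize x.im = b
  rcases Nat.lt_or_ge k 2 with hk | hk
  · obtain ⟨⟨p, hp⟩, ⟨q, hq⟩⟩ := primary_iff.1 hc0
    have hcre : c0.re = 1 + 3 * p := by linarith
    have key : ∃ e1 e2 t1 t2 : ℤ, y.re = e1 + 3 * t1 ∧ y.im = e2 + 3 * t2 ∧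
        (s * om ^ i * lam ^ k).re = e1 ∧ (s * om ^ i * lam ^ k).im = e2 := by
      have h1 : (3 : O) ∣ y - s * om ^ i * lam ^ k := by
        rw [hy, show s * om ^ i * lam ^ k * c0 - s * om ^ i * lam ^ k =
          (c0 - 1) * (s * om ^ i * lam ^ k) by ring]
        exact Dvd.dvd.mul_right hc0 _
      obtain ⟨⟨t1, h2⟩, ⟨t2, h3⟩⟩ := dvd_three_iff.1 h1
      rw [QuadraticAlgebra.re_sub] at h2
      rw [QuadraticAlgebra.im_sub] at h3
      exact ⟨_, _, t1, t2, by linarith, by linarith, rfl, rfl⟩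
    obtain ⟨e1, e2, t1, t2, h1, h2, h3, h4⟩ := key
    rw [h1, h2]
    have hfin : (3 : ℤ) ∣ (-((e2 * b - e1 * a) + (e2 * b - e1 * b - e2 * a)) * ((i + 2 : ℕ) : ℤ) +
        (e2 * b - e1 * a) * ((k + 2 : ℕ) : ℤ)) - b * (2 * e1 - e2) := by
      interval_cases k <;> interval_cases i <;> rcases hs with rfl | rfl <;>
        simp [lam, om, pow_succ, re_one', im_one',
          QuadraticAlgebra.re_neg, QuadraticAlgebra.im_neg] at h3 h4 <;>
        subst h3 <;> subst h4 <;> push_cast <;> omega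
    obtain ⟨r, hr⟩ := hfin
    refine ⟨r + (-((t2 * b - t1 * a) + (t2 * b - t1 * b - t2 * a)) * ((i + 2 : ℕ) : ℤ) +
        (t2 * b - t1 * a) * ((k + 2 : ℕ) : ℤ) - b * (2 * t1 - t2)), ?_⟩
    linear_combination hr
  · obtain ⟨k', rfl⟩ := Nat.exists_eq_add_of_le hk
    have h1 : (3 : O) ∣ y := by
      rw [hy, pow_add, show lam ^ 2 = 3 * (-om) by decide]
      exact ⟨s * om ^ i * (-om * lam ^ k') * c0, by ring⟩
    obtain ⟨⟨t1, h2⟩, ⟨t2, h3⟩⟩ := dvd_three_iff.1 h1
    rw [h2, h3]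
    exact ⟨(-((t2 * b - t1 * a) + (t2 * b - t1 * b - t2 * a)) * ((i + 2 : ℕ) : ℤ) +
        (t2 * b - t1 * a) * ((2 + k' + 2 : ℕ) : ℤ) - b * (2 * t1 - t2)), by ring⟩

/-- **shear of the row** -/
theorem sym_shear (y x : O) {d : O} (hd : Primary d) :
    toC (sym (3 * y) (d - 3 * y * x)) = psi3 x.im y * toC (sym (3 * y) d) := by
  by_cases hy0 : y = 0
  · subst hy0
    simp [psi3]
  obtain ⟨u, c0, k, hu, hc0, hy⟩ := KU.exists_factor y hy0
  have hc0 : Primary c0 := hc0
  obtain ⟨i, s, hs, hi, hus⟩ := exists_unit_eq hu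
  have hy' : y = s * om ^ i * lam ^ k * c0 := by rw [hy, hus]
  have hd' : d - 3 * y * x = d + 3 * (-(y * x)) := by ring
  have hdp : Primary (d + 3 * (-(y * x))) := primary_add_three hd _
  have h3y : ∀ b : O, sym (3 * y) b = sym (om ^ (i + 2) * lam ^ (k + 2)) b * sym c0 b := by
    intro b
    have e1 : 3 * y = -s * (om ^ (i + 2) * lam ^ (k + 2) * c0) := by
      rw [hy', three_eq]; ring
    rw [e1, sym_mul_left, sym_mul_left _ c0]
    rcases hs with rfl | rfl
    · rw [sym_neg_one, one_mul]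
    · rw [neg_neg, sym_one_left, one_mul]
  have h2 : sym c0 (d + 3 * (-(y * x))) = sym c0 d := by
    rw [recip hc0 hdp, recip hc0 hd]
    refine sym_periodic ?_
    rw [add_sub_cancel_left, hy']
    exact ⟨-(3 * (s * om ^ i * lam ^ k * x)), by ring⟩
  rw [hd', h3y, h3y, h2, map_mul, map_mul, sym_supp_shift hd, psi3_eq,
    e_third_congr (expo_dvd (x := x) hi hs hc0 hy')]
  ring

end Vale.Agent.P026Z.TH
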